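import Crest.Agent.N255.Nv.Abs

/-!
# Row 255 (helper10): acyclic carriers into ordered tuples, sorted tuples
-/

set_option autoImplicit false
set_option linter.unusedSectionVars false
open Set Finsupp

noncomputable section

namespace Crest.Agent.N255.Dg

open Nv

variable {k : Type} [CommRing k] {C S : Type}

variable (k) in
/-- chains of tuples in `A` -/
def Car (A : Set S) (n : ℕ) : Submodule k (Tu S n →₀ k) := supported k k {τ | range τ ⊆ A}

theorem Car_mono {A B : Set S} (h : A ⊆ B) (n : ℕ) : Car k A n ≤ Car k B n :=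
  supported_mono fun _ h' => h'.trans h

theorem cn_Car {A : Set S} {a : S} (ha : a ∈ A) {n : ℕ} {c : Tu S n →₀ k} (hc : c ∈ Car k A n) :
    cn k a n c ∈ Car k A (n + 1) :=
  mem_of (fun τ hτ => by
    rw [cn_single]
    refine single_mem_supported k 1 ?_
    show range (Fin.cons a τ : Tu S (n + 1)) ⊆ A
    rw [Fin.range_cons]
    exact insert_subset ha hτ) hc

open Classical in
/-- the recursive construction -/
def ext (D : (C →₀ k) →ₗ[k] (C →₀ k)) (N : Set C) (a : C → Option S)
    (G θ : ∀ n, (C →₀ k) →ₗ[k] (Tu S n →₀ k)) (F0 : (C →₀ k) →ₗ[k] (Tu S 0 →₀ k)) :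
    ∀ n, (C →₀ k) →ₗ[k] (Tu S n →₀ k)
  | 0 => F0
  | n + 1 => linearCombination k fun y => if y ∈ N then θ (n + 1) (single y 1) else
      (a y).elim 0 fun s => cn k s n (G n (single y 1) + ext D N a G θ F0 n (D (single y 1)))

/-- **acyclic carriers**: solve `∂ F y = G y + F (D y)` on `N0` with prescribed values on `N` -/
theorem exists_car (D : (C →₀ k) →ₗ[k] (C →₀ k)) (dim : C → ℕ) (car : C → Set S) (N N0 : Set C)
    (G θ : ∀ n, (C →₀ k) →ₗ[k] (Tu S n →₀ k)) (F0 : (C →₀ k) →ₗ[k] (Tu S 0 →₀ k))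
    (hne : ∀ y ∈ N0, y ∉ N → (car y).Nonempty)
    (hD : ∀ y ∈ N0, D (single y 1) ∈ supported k k {x | x ∈ N0 ∧ car x ⊆ car y ∧ dim x + 1 = dim y})
    (hN : ∀ y ∈ N, D (single y 1) ∈ supported k k N) (hdd : ∀ y ∈ N0, D (D (single y 1)) = 0)
    (hG : ∀ n, ∀ y ∈ N0, dim y = n + 1 → G n (single y 1) ∈ Car k (car y) n)
    (hG2 : ∀ n, ∀ y ∈ N0, dim y = n + 2 → tb k n (G (n + 1) (single y 1)) + G n (D (single y 1)) = 0)
    (h0 : ∀ y ∈ N0, dim y = 0 → F0 (single y 1) ∈ Car k (car y) 0 ∧
      (y ∈ N → F0 (single y 1) = θ 0 (single y 1)))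
    (h1 : ∀ y ∈ N0, dim y = 1 → ta k (G 0 (single y 1) + F0 (D (single y 1))) = 0)
    (hθ : ∀ n, ∀ y ∈ N, dim y = n + 1 → θ (n + 1) (single y 1) ∈ Car k (car y) (n + 1) ∧
      tb k n (θ (n + 1) (single y 1)) = G n (single y 1) + θ n (D (single y 1))) :
    ∃ F : ∀ n, (C →₀ k) →ₗ[k] (Tu S n →₀ k), F 0 = F0 ∧
      (∀ n, ∀ y ∈ N0, dim y = n → F n (single y 1) ∈ Car k (car y) n ∧
        (y ∈ N → F n (single y 1) = θ n (single y 1))) ∧
      ∀ n, ∀ y ∈ N0, dim y = n + 1 →
        tb k n (F (n + 1) (single y 1)) = G n (single y 1) + F n (D (single y 1)) := by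
  classical
  let a : C → Option S := fun y => if h : (car y).Nonempty then some h.some else none
  let F := ext D N a G θ F0
  have e1 : ∀ n, ∀ y ∈ N, F (n + 1) (single y 1) = θ (n + 1) (single y 1) := fun n y hy => by
    simp only [F, ext, linearCombination_single, one_smul, if_pos hy]
  have e2 : ∀ n y, y ∉ N → ∀ h : (car y).Nonempty, F (n + 1) (single y 1) =
      cn k h.some n (G n (single y 1) + F n (D (single y 1))) := fun n y hy h => by
    simp only [F, ext, linearCombination_single, one_smul, if_neg hy, a, dif_pos h, Option.elim_some]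
  have key : ∀ n, (∀ y ∈ N0, dim y = n → F n (single y 1) ∈ Car k (car y) n ∧
      (y ∈ N → F n (single y 1) = θ n (single y 1))) ∧
      ∀ y ∈ N0, dim y = n + 1 → G n (single y 1) + F n (D (single y 1)) ∈ rc (tb k) (ta k) n := by
    intro n
    induction n with
    | zero => exact ⟨h0, h1⟩
    | succ n ih =>
      have r : ∀ y ∈ N0, dim y = n + 1 →
          tb k n (F (n + 1) (single y 1)) = G n (single y 1) + F n (D (single y 1)) := fun y hy hd => by
        by_cases h : y ∈ N
        · rw [e1 n y h, (hθ n y h hd).2]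
          congr 1
          refine (eq_of (s := {x | x ∈ N0 ∧ car x ⊆ car y ∧ dim x + 1 = dim y} ∩ N)
            (fun x hx => (ih.1 x hx.1.1 (by have := hx.1.2.2; omega)).2 hx.2) ?_).symm
          rw [supported_inter]
          exact ⟨hD y hy, hN y h⟩
        · rw [e2 n y h (hne y hy h), tb_cn _ (ih.2 y hy hd)]
      refine ⟨fun y hy hd => ⟨?_, e1 n y⟩, fun y hy hd => ?_⟩
      · by_cases h : y ∈ N
        · rw [e1 n y h]; exact (hθ n y h hd).1
        · rw [e2 n y h (hne y hy h)]
          refine cn_Car (hne y hy h).some_mem (add_mem (hG n y hy hd) (mem_of (fun x hx => ?_) (hD y hy)))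
          exact Car_mono hx.2.1 n (ih.1 x hx.1 (by have := hx.2.2; omega)).1
      · show tb k n _ = 0
        have := eq_of (F := tb k n ∘ₗ F (n + 1)) (F' := G n + F n ∘ₗ D)
          (fun x hx => r x hx.1 (by have := hx.2.2; omega)) (hD y hy)
        simp only [LinearMap.comp_apply, LinearMap.add_apply, hdd y hy, map_zero, add_zero] at this
        rw [map_add, this, hG2 n y hy hd]
  refine ⟨F, rfl, fun n => (key n).1, fun n y hy hd => ?_⟩
  by_cases h : y ∈ N
  · rw [e1 n y h, (hθ n y h hd).2]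
    congr 1
    refine (eq_of (s := {x | x ∈ N0 ∧ car x ⊆ car y ∧ dim x + 1 = dim y} ∩ N)
      (fun x hx => ((key n).1 x hx.1.1 (by have := hx.1.2.2; omega)).2 hx.2) ?_).symm
    rw [supported_inter]
    exact ⟨hD y hy, hN y h⟩
  · rw [e2 n y h (hne y hy h), tb_cn _ ((key n).2 y hy hd)]

/-! ### sorted tuples -/

variable {K : Type} [LinearOrder K] [DecidableEq S] {col : S → K} {n : ℕ}

/-- the vertices of a tuple -/
def im (x : Tu S n) : Finset S := Finset.univ.image x

theorem coe_im (x : Tu S n) : (im x : Set S) = range x := by simp [im]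

theorem mem_im (x : Tu S n) (i : Fin (n + 1)) : x i ∈ im x := Finset.mem_image_of_mem _ (Finset.mem_univ _)

theorem srt_inj {x : Tu S n} (h : StrictMono (col ∘ x)) : Function.Injective x :=
  Function.Injective.of_comp h.injective

theorem card_im {x : Tu S n} (h : StrictMono (col ∘ x)) : (im x).card = n + 1 := by
  rw [im, Finset.card_image_of_injective _ (srt_inj h)]; simp

theorem srt_uniq {x y : Tu S n} (h : StrictMono (col ∘ x)) (h' : StrictMono (col ∘ y))
    (e : im x = im y) : x = y := by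
  have r : range x = range y := by rw [← coe_im, e, coe_im]
  have c : col ∘ x = col ∘ y := (h.range_inj h').1 (by rw [range_comp, range_comp, r])
  funext i
  obtain ⟨j, hj⟩ : y i ∈ range x := r ▸ mem_range_self i
  have : j = i := h.injective (by rw [Function.comp_apply, hj, c]; rfl)
  rw [← hj, this]

theorem exists_srt {τ : Finset S} (hi : InjOn col τ) (hc : τ.card = n + 1) :
    ∃ x : Tu S n, StrictMono (col ∘ x) ∧ im x = τ := by
  have c : (τ.image col).card = n + 1 := by rw [Finset.card_image_of_injOn hi, hc]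
  choose x hx e using fun i => Finset.mem_image.1 ((τ.image col).orderEmbOfFin_mem c i)
  have m : StrictMono (col ∘ x) := fun i j h => by
    simpa only [Function.comp_apply, e] using ((τ.image col).orderEmbOfFin c).strictMono h
  refine ⟨x, m, Finset.eq_of_subset_of_card_le (fun s hs => ?_) (by rw [card_im m, hc])⟩
  obtain ⟨i, -, rfl⟩ := Finset.mem_image.1 hs
  exact hx i

theorem srt_tf {x : Tu S (n + 1)} (h : StrictMono (col ∘ x)) (i : Fin (n + 2)) :
    StrictMono (col ∘ tf x i) := h.comp (Fin.strictMono_succAbove i)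

theorem im_tf {x : Tu S (n + 1)} (h : StrictMono (col ∘ x)) (i : Fin (n + 2)) :
    im (tf x i) = (im x).erase (x i) := by
  ext s
  simp only [im, Finset.mem_erase, Finset.mem_image, Finset.mem_univ, true_and, tf]
  refine ⟨fun ⟨j, e⟩ => ⟨fun e' => Fin.succAbove_ne i j (srt_inj h (e.trans e')), _, e⟩, ?_⟩
  rintro ⟨h1, j, rfl⟩
  obtain ⟨l, rfl⟩ := Fin.exists_succAbove_eq (x := j) (y := i) fun e => h1 (e ▸ rfl)
  exact ⟨l, rfl⟩

theorem card_lt {x : Tu S n} (h : StrictMono (col ∘ x)) (i : Fin (n + 1)) :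
    ((im x).filter fun t => col t < col (x i)).card = i := by
  rw [im, Finset.filter_image, Finset.card_image_of_injective _ (srt_inj h), ← Fin.card_Iio i]
  congr 1
  ext j
  simpa using h.lt_iff_lt

variable (k col) in
open Classical in
/-- the sorted tuple of a finite set -/
def Δ (n : ℕ) (τ : Finset S) : Tu S n →₀ k :=
  if h : ∃ x : Tu S n, StrictMono (col ∘ x) ∧ im x = τ then single h.choose 1 else 0

theorem Δ_im {x : Tu S n} (h : StrictMono (col ∘ x)) : Δ k col n (im x) = single x 1 := by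
  have e : ∃ y : Tu S n, StrictMono (col ∘ y) ∧ im y = im x := ⟨x, h, rfl⟩
  rw [Δ, dif_pos e, srt_uniq e.choose_spec.1 h e.choose_spec.2]

theorem Δ_Car (n : ℕ) (τ : Finset S) : Δ k col n τ ∈ Car k (τ : Set S) n := by
  unfold Δ
  split_ifs with h
  · exact single_mem_supported k 1 (by rw [mem_ofPred_eq, ← coe_im, h.choose_spec.2])
  · exact zero_mem _

theorem tb_Δ {τ : Finset S} (hi : InjOn col τ) (hc : τ.card = n + 2) : tb k n (Δ k col (n + 1) τ) =
    ∑ s ∈ τ, (-1 : k) ^ (τ.filter fun t => col t < col s).card • Δ k col n (τ.erase s) := by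
  obtain ⟨x, h, rfl⟩ := exists_srt hi hc
  rw [Δ_im h, tb_single, im, Finset.sum_image (srt_inj h).injOn]
  refine Finset.sum_congr rfl fun i _ => ?_
  rw [← im, card_lt h, ← im_tf h, Δ_im (srt_tf h i)]

theorem ta_Δ (s : S) : ta k (Δ k col 0 {s}) = 1 := by
  have : im (fun _ => s : Tu S 0) = {s} := by simp [im]
  rw [← this, Δ_im (Subsingleton.strictMono (α := Fin 1) _), ta_single]

end Crest.Agent.N255.Dg
end
private theorem rz_b2c9d10540 : type_of% @_root_.Crest.Agent.N255.Dg.ext.eq_def := @_root_.Crest.Agent.N255.Dg.ext.eq_def -- L37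
private theorem rz_cd609c40dd : type_of% @_root_.Crest.Agent.N255.Dg.ext.eq_1 := @_root_.Crest.Agent.N255.Dg.ext.eq_1 -- L37
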