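import Crest.Agent.N255.Dg.Car
import Crest.Agent.N255.Ce.Fr
import Crest.Agent.N255.Fa.Q0
import Crest.Agent.N255.Gs.Cell
import Crest.Agent.N255.Gs.Far
import Crest.Agent.N255.Ce.Res

-- ▼ part N255/Dg/Cell
section

/-!
# Row 255 (helper10): the degree of a cocycle of the nerve, cellular version
-/

set_option autoImplicit false
set_option linter.unusedSectionVars false
open Set Finsupp

noncomputable section

namespace Crest.Agent.N255.Dg

open Nv Ra Ce Ce.Mir Ce.Mir.Cell Gs

variable {S K F Nd Ed : Type} [DecidableEq S] [Group F] [MulAction F Nd] [MulAction F Ed]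
  [LinearOrder K] [Finite K] {M : Mir S K F Nd Ed} {k : Type} [CommRing k] {x y : M.Cell} {s : S}

/-- the carrier of a cell: the mirrors of the base chamber which do not lie behind the cell -/
def car (y : M.Cell) : Set S := Init (top y.w y.τ)

theorem car_mono (h : x ≤ y) : car x ⊆ car y := fun _ ha => Fa.init_of_has (x.has_top.mono h) ha

theorem car_clique (y : M.Cell) : M.Γ.IsClique (car y) := Init_clique _

theorem w_one (h : Has 1 y) : y.w = 1 := by rw [h.w_eq]; simp [Mir.cn]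


theorem hi_ne (hs : s ∈ y.τ) : (y.hi s).w ≠ 1 := fun e => by
  have := y.cor s hs
  rw [hi_w hs] at e
  rw [eq_inv_of_mul_eq_one_left e, gen_inv, ch_gen, if_pos rfl] at this
  exact one_ne_zero this

theorem sub_car (e : y.w = 1) : (y.τ : Set S) ⊆ car y := fun s hs =>
  Fa.init_of_has ((has_self y).mul (gen_mem_WT hs)) (by rw [e, one_mul, Init_eq, gen_inv, In_gen]; rfl)


theorem car_ne (h : ¬(y.w = 1 ∧ y.τ = ∅)) : (car y).Nonempty := by
  rw [car, Init_eq]
  refine In_nonempty fun e => h ?_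
  have e' := inv_eq_one.1 e
  refine ⟨w_one (e' ▸ y.has_top), Finset.eq_empty_of_forall_notMem fun s hs => ?_⟩
  simpa [e'] using mem_In_top (w := y.w) y.cl hs

variable (M k) in
/-- the boundary over `k` -/
def Dk : (M.Cell →₀ k) →ₗ[k] (M.Cell →₀ k) := bc k M.ug.D

theorem Dk_apply (y x : M.Cell) : Dk M k (single y 1) x = (y.bd x : k) := by
  rw [Dk, bc_apply, UG.D_single]; rfl

theorem Dk_eq {V : Type} [AddCommGroup V] [Module k V] (T : (M.Cell →₀ k) →ₗ[k] V) (y : M.Cell) :
    T (Dk M k (single y 1)) =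
      ∑ s ∈ y.τ, (M.ε s y.τ : k) • (T (single (y.lo s) 1) - T (single (y.hi s) 1)) +
        (-1 : k) ^ y.τ.card • (T (single (y.en true) 1) - T (single (y.en false) 1)) := by
  rw [Dk, bc_single, UG.D_single]
  change T (rd k y.bd) = _
  simp only [Cell.bd, map_add, map_sum, map_zsmul, map_sub, rd_single, Int.cast_one]
  simp only [← Int.cast_smul_eq_zsmul k, Int.cast_pow, Int.cast_neg, Int.cast_one]

theorem Dk_mem (y : M.Cell) :
    Dk M k (single y 1) ∈ supported k k {x | x ≤ y ∧ x.dim + 1 = y.dim} :=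
  (mem_supported k _).2 fun x hx => by
    have h : y.bd x ≠ 0 := fun e => mem_support_iff.1 hx (by rw [Dk_apply, e, Int.cast_zero])
    exact ⟨le_of_bd h, dim_bd h⟩

theorem Dk_Dk (y : M.Cell) : Dk M k (Dk M k (single y 1)) = 0 := by
  rw [Dk, bc_single, bc_rd, UG.D, M.ug.dd, map_zero]


variable (M k) in
open Classical in
/-- the defect on the base chamber -/
def Gd (n : ℕ) : (M.Cell →₀ k) →ₗ[k] (Tu S n →₀ k) :=
  linearCombination k fun y => if y.w = 1 ∧ tdim y.c = 0 then (-1 : k) ^ n • Δ k M.col n y.τ else 0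

theorem Gd_pos {n : ℕ} (h : y.w = 1 ∧ tdim y.c = 0) :
    Gd M k n (single y 1) = (-1 : k) ^ n • Δ k M.col n y.τ := by
  rw [Gd, linearCombination_single, one_smul, if_pos h]

theorem Gd_neg {n : ℕ} (h : ¬(y.w = 1 ∧ tdim y.c = 0)) : Gd M k n (single y 1) = 0 := by
  rw [Gd, linearCombination_single, one_smul, if_neg h]

theorem Gd_en (n : ℕ) (y : M.Cell) :
    Gd M k n (single (y.en true) 1) = Gd M k n (single (y.en false) 1) := by
  by_cases h : y.w = 1
  · rw [Gd_pos (y := y.en true) ⟨h, rfl⟩, Gd_pos (y := y.en false) ⟨h, rfl⟩]; rfl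
  · rw [Gd_neg (y := y.en true) fun e => h e.1, Gd_neg (y := y.en false) fun e => h e.1]

theorem Gd_car (n : ℕ) (y : M.Cell) : Gd M k n (single y 1) ∈ Car k (car y) n := by
  by_cases h : y.w = 1 ∧ tdim y.c = 0
  · rw [Gd_pos h]
    exact Submodule.smul_mem _ _ (Car_mono (sub_car h.1) n (Δ_Car n _))
  · rw [Gd_neg h]; exact zero_mem _

theorem tb_Gd (n : ℕ) (hy : y.dim = n + 2) :
    tb k n (Gd M k (n + 1) (single y 1)) + Gd M k n (Dk M k (single y 1)) = 0 := by
  rw [Dk_eq, Gd_en, sub_self, smul_zero, add_zero]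
  by_cases h : y.w = 1 ∧ tdim y.c = 0
  · rw [Gd_pos h, map_smul, tb_Δ (fun a ha b hb e => col_inj y.cl ha hb e) (by
      rw [Cell.dim, h.2] at hy; exact hy), Finset.smul_sum, ← Finset.sum_add_distrib]
    refine Finset.sum_eq_zero fun s hs => ?_
    rw [Gd_neg (y := y.hi s) fun e => hi_ne hs e.1, Gd_pos (y := y.lo s) h, sub_zero, Mir.ε, smul_smul,
      smul_smul, show (y.lo s).τ = y.τ.erase s from rfl, ← add_smul]
    push_cast
    rw [pow_succ, show ∀ a b : k, a * -1 * b + b * a = 0 from fun a b => by ring, zero_smul]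
  · rw [Gd_neg h, map_zero, zero_add]
    refine Finset.sum_eq_zero fun s hs => ?_
    rw [Gd_neg (y := y.hi s) fun e => hi_ne hs e.1, Gd_neg (y := y.lo s) h, sub_zero, smul_zero]

open Classical in
theorem ta_Gd (T : (M.Cell →₀ k) →ₗ[k] k) (hT : ∀ x, T (single x 1) = if x.w = 1 then 0 else 1)
    (hy : y.dim = 1) : ta k (Gd M k 0 (single y 1)) + T (Dk M k (single y 1)) = 0 := by
  rw [Dk_eq, hT, hT, show (y.en true).w = (y.en false).w from rfl, sub_self, smul_zero, add_zero]
  by_cases h : tdim y.c = 0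
  · obtain ⟨s, hs⟩ := Finset.card_eq_one.1 (show y.τ.card = 1 by rw [Cell.dim, h] at hy; exact hy)
    have e : M.ε s y.τ = 1 := by rw [Mir.ε, hs]; simp [Finset.filter_singleton]
    have h2 := hi_ne (y := y) (s := s) (by simp [hs])
    rw [Finset.sum_eq_single_of_mem s (by simp [hs]) fun b hb n => absurd (by simpa [hs] using hb) n,
      e, hT, hT, if_neg h2]
    by_cases w : y.w = 1
    · rw [Gd_pos ⟨w, h⟩, hs, if_pos (show (y.lo s).w = 1 from w)]
      simp [ta_Δ]
    · rw [Gd_neg fun e => w e.1, if_neg (show ¬(y.lo s).w = 1 from w)]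
      simp
  · have : y.τ = ∅ := Finset.card_eq_zero.1 (by rw [Cell.dim] at hy; omega)
    rw [Gd_neg fun e => h e.2, this]
    simp

/-- a carried chain map on a subcomplex off the base chamber -/
structure Th (N : Set M.Cell) (θ : ∀ n, (M.Cell →₀ k) →ₗ[k] (Tu S n →₀ k)) : Prop where
  cl : ∀ y ∈ N, ∀ x ≤ y, x ∈ N
  ne : ∀ y ∈ N, y.w ≠ 1
  car : ∀ n, ∀ y ∈ N, y.dim = n → θ n (single y 1) ∈ Car k (car y) n
  au : ∀ y ∈ N, y.dim = 0 → ta k (θ 0 (single y 1)) = 1
  ch : ∀ n, ∀ y ∈ N, y.dim = n + 1 → tb k n (θ (n + 1) (single y 1)) = θ n (Dk M k (single y 1))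

variable {N : Set M.Cell} {θ : ∀ n, (M.Cell →₀ k) →ₗ[k] (Tu S n →₀ k)}

theorem Th.ext (h : Th N θ) : ∃ Φ : ∀ n, (M.Cell →₀ k) →ₗ[k] (Tu S n →₀ k),
    (∀ n y, y.dim = n → Φ n (single y 1) ∈ Car k (Dg.car y) n ∧
      (y ∈ N → Φ n (single y 1) = θ n (single y 1))) ∧
    ∀ n y, y.dim = n + 1 →
      tb k n (Φ (n + 1) (single y 1)) = Gd M k n (single y 1) + Φ n (Dk M k (single y 1)) := by
  classical
  let θ' : ∀ n, (M.Cell →₀ k) →ₗ[k] (Tu S n →₀ k) := fun n =>
    linearCombination k fun x => if x ∈ N then θ n (single x 1) else 0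
  have t1 : ∀ n, ∀ x ∈ N, θ' n (single x 1) = θ n (single x 1) := fun n x hx => by
    simp only [θ', linearCombination_single, one_smul, if_pos hx]
  have t2 : ∀ n x, x.w = 1 → θ' n (single x 1) = 0 := fun n x hx => by
    simp only [θ', linearCombination_single, one_smul, if_neg fun e => h.ne x e hx]
  let F0 : (M.Cell →₀ k) →ₗ[k] (Tu S 0 →₀ k) := linearCombination k fun x =>
    if e : x.w = 1 then 0 else if x ∈ N ∧ x.dim = 0 then θ 0 (single x 1) else
      single (fun _ => (car_ne fun e' => e e'.1).some) 1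
  have f1 : ∀ x, x.w = 1 → F0 (single x 1) = 0 := fun x hx => by
    simp only [F0, linearCombination_single, one_smul, dif_pos hx]
  have f2 : ∀ x ∈ N, x.dim = 0 → F0 (single x 1) = θ 0 (single x 1) := fun x hx hd => by
    simp only [F0, linearCombination_single, one_smul, dif_neg (h.ne x hx), if_pos (And.intro hx hd)]
  have f3 : ∀ x, ∀ e : x.w ≠ 1, ¬(x ∈ N ∧ x.dim = 0) →
      F0 (single x 1) = single (fun _ => (car_ne fun e' => e e'.1).some) 1 := fun x e hx => by
    simp only [F0, linearCombination_single, one_smul, dif_neg e, if_neg hx]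
  have fN : ∀ y ∈ N, Dk M k (single y 1) ∈ supported k k N := fun y hy =>
    supported_mono (fun x hx => h.cl y hy x hx.1) (Dk_mem y)
  have fw : ∀ y : M.Cell, y.w = 1 ∧ y.τ = ∅ →
      Dk M k (single y 1) ∈ supported k k {x : M.Cell | x.w = 1 ∧ x.τ = ∅} := fun y hy =>
    supported_mono (fun x hx => by
      obtain ⟨σ, h1, h2⟩ := (mem_WT y.cl).1 hx.1.2.2
      rw [hy.2, Finset.subset_empty] at h1
      exact ⟨by simpa [hy.1, h1] using h2, Finset.subset_empty.1 (hy.2 ▸ hx.1.1)⟩) (Dk_mem y)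
  obtain ⟨Φ, -, a, b⟩ := exists_car (Dk M k) Cell.dim Dg.car (N ∪ {x | x.w = 1 ∧ x.τ = ∅}) univ (Gd M k)
    θ' F0 (fun y _ hy => car_ne fun e => hy (.inr e))
    (fun y _ => supported_mono (fun x hx => And.intro trivial ⟨car_mono hx.1, hx.2⟩) (Dk_mem y))
    (fun y hy => hy.elim (fun hy => supported_mono subset_union_left (fN y hy))
      fun hy => supported_mono subset_union_right (fw y hy))
    (fun y _ => Dk_Dk y) (fun n y _ _ => Gd_car n y) (fun n y _ => tb_Gd n)
    (fun y _ hd => by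
      by_cases e : y.w = 1
      · rw [f1 y e, t2 0 y e]; exact ⟨zero_mem _, fun _ => rfl⟩
      by_cases e' : y ∈ N
      · rw [f2 y e' hd, t1 0 y e']; exact ⟨h.car 0 y e' hd, fun _ => rfl⟩
      · rw [f3 y e fun x => e' x.1]
        refine ⟨single_mem_supported k 1 ?_, fun x => (x.elim e' fun x => e x.1).elim⟩
        rintro _ ⟨_, rfl⟩
        exact Set.Nonempty.some_mem _)
    (fun y _ hd => by
      rw [map_add]
      refine ta_Gd (ta k ∘ₗ F0) (fun x => ?_) hd
      rw [LinearMap.comp_apply]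
      split_ifs with e
      · rw [f1 x e, map_zero]
      by_cases e' : x ∈ N ∧ x.dim = 0
      · rw [f2 x e'.1 e'.2, h.au x e'.1 e'.2]
      · rw [f3 x e e', ta_single])
    (fun n y hy hd => by
      rcases hy with hy | hy
      · rw [t1 _ y hy, h.ch n y hy hd, Gd_neg fun e => h.ne y hy e.1, zero_add,
          eq_of (t1 n) (fN y hy)]
        exact ⟨h.car _ y hy hd, rfl⟩
      · rw [t2 _ y hy.1, map_zero, Gd_neg fun e => by rw [Cell.dim, e.2, hy.2] at hd; simp at hd,
          eq_of (F' := 0) (fun x hx => t2 n x hx.1) (fw y hy)]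
        exact ⟨zero_mem _, by simp⟩)
  exact ⟨Φ, fun n y hd => ⟨(a n y trivial hd).1, fun hy => ((a n y trivial hd).2 (.inl hy)).trans
    (t1 n y hy)⟩, fun n y => b n y trivial⟩

theorem lc_car {n : ℕ} {ω : Tu S n → k} {A B : Set S} (hA : ∀ x, ω x ≠ 0 → ∃ i, x i ∈ A)
    {c : Tu S n →₀ k} (hc : c ∈ Car k B n) (h : linearCombination k ω c ≠ 0) : (B ∩ A).Nonempty := by
  by_contra e
  refine h (eq_of (F' := 0) (fun x hx => ?_) hc)
  rw [linearCombination_single, one_smul]
  by_contra e'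
  obtain ⟨i, hi⟩ := hA x e'
  exact e ⟨x i, hx ⟨i, rfl⟩, hi⟩

variable (H : M.Cham)

theorem stokes (ξ : M.Cell →₀ k) :
    ∑ᶠ y, (H.oc y : k) * linearCombination k ξ (Dk M k (single y 1)) = 0 ∧
      {y | linearCombination k ξ (Dk M k (single y 1)) ≠ 0}.Finite := by
  have e : ∀ y, linearCombination k ξ (Dk M k (single y 1)) = bc k M.ug.de ξ y := fun y => by
    change Gs.pr k ξ _ = _
    rw [pr_comm]
    refine eq_of (F := Gs.pr k _) (F' := lapply y ∘ₗ bc k M.ug.de) (s := univ) (fun x _ => ?_)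
      (by simp)
    rw [pr_single, one_mul, Dk_apply, LinearMap.comp_apply, lapply_apply, bc_apply, UG.de_single]; rfl
  have z : linearCombination k (fun y => (H.oc y : k)) (bc k M.ug.de ξ) = 0 :=
    eq_of (F := linearCombination k (fun y => (H.oc y : k)) ∘ₗ bc k M.ug.de) (F' := 0) (s := univ)
      (fun x _ => by
        have := congrArg (Int.cast : ℤ → k) (H.oc_de M.ug.de_apply x)
        rw [LinearMap.comp_apply, bc_single, linearCombination_apply, rd,
          mapRange.addMonoidHom_apply, sum_mapRange_index (by simp)]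
        simpa [linearCombination_apply, Finsupp.sum] using this) (by simp)
  simp only [e]
  refine ⟨?_, (bc k M.ug.de ξ).hasFiniteSupport⟩
  rw [← z, linearCombination_apply, Finsupp.sum, finsum_eq_sum_of_support_subset
    (s := (bc k M.ug.de ξ).support) _ fun y hy => mem_support_iff.2 (right_ne_zero_of_mul hy)]
  exact Finset.sum_congr rfl fun _ _ => mul_comm _ _

/-- the degree of a function on `4`-tuples -/
def dg (ω : Tu S 3 → k) : k :=
  ∑ᶠ p ∈ {p : Finset S × Nd | M.Val ∅ (p.1, .inl p.2)},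
    (H.or (p.1, .inl p.2) : k) * linearCombination k ω (Δ k M.col 3 p.1)

theorem dg_eq (ω : Tu S 3 → k) :
    dg H ω = ∑ᶠ y, (H.oc y : k) * -linearCombination k ω (Gd M k 3 (single y 1)) := by
  classical
  let c : {p : Finset S × Nd // M.Val ∅ (p.1, .inl p.2)} → M.Cell := fun p =>
    ⟨1, p.1.1, .inl p.1.2, p.2.1, p.2.2.1, fun _ _ => M.ch_one _⟩
  have i : Function.Injective c := fun p q e => Subtype.ext (Prod.ext (congrArg Cell.τ e)
    (Sum.inl_injective (congrArg Cell.c e)))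
  rw [dg, ← finsum_subtype_eq_finsum_cond, ← finsum_mem_univ (α := M.Cell),
    finsum_mem_inter_support_eq' _ univ (range c), finsum_mem_range i]
  · refine finsum_congr fun p => ?_
    rw [Gd_pos (y := c p) ⟨rfl, rfl⟩, Cham.oc, show sg (c p).w = 1 from sg_one, one_mul, map_smul]
    simp only [Odd.neg_one_pow (⟨1, rfl⟩ : Odd 3), neg_smul, one_smul, neg_neg]
    rfl
  · intro y hy
    refine iff_of_true trivial ?_
    by_cases h : y.w = 1 ∧ tdim y.c = 0
    · obtain ⟨w, τ, t | e, cl, sub, cor⟩ := y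
      · obtain rfl : w = 1 := h.1
        exact ⟨⟨(τ, t), cl, sub, Finset.disjoint_empty_right _⟩, rfl⟩
      · exact absurd h.2 one_ne_zero
    · exact absurd (by simp [Gd_neg h]) hy

/-- **the degree, cellular version** -/
theorem deg_cell (h : Th N θ) {ω : Tu S 3 → k}
    (hω : ∀ x : Tu S 4, M.Γ.IsClique (range x) → linearCombination k ω (tb k 3 (single x 1)) = 0)
    {A : Set S} (hA : ∀ x, ω x ≠ 0 → ∃ i, x i ∈ A) (hf : {y | y ∉ N ∧ (car y ∩ A).Nonempty}.Finite)
    (ψ : (M.Cell →₀ k) →ₗ[k] k)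
    (hψ : ∀ y ∈ N, y.dim = 3 → ψ (single y 1) = linearCombination k ω (θ 3 (single y 1)))
    (hψf : {y | y ∉ N ∧ y.dim = 3 ∧ ψ (single y 1) ≠ 0}.Finite) :
    ∑ᶠ y, (H.oc y : k) * ψ (Dk M k (single y 1)) = dg H ω := by
  classical
  obtain ⟨Φ, a, b⟩ := h.ext
  let T : (M.Cell →₀ k) →ₗ[k] k := ψ - linearCombination k ω ∘ₗ Φ 3
  let ξ : M.Cell →₀ k := ofSupportFinite (fun x => if x.dim = 3 then T (single x 1) else 0)
    ((hf.union hψf).subset fun x hx => by
      have hd : x.dim = 3 := by_contra fun e => hx (if_neg e)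
      have h1 : ψ (single x 1) - linearCombination k ω (Φ 3 (single x 1)) ≠ 0 := fun e =>
        hx ((if_pos hd).trans e)
      have h2 : x ∉ N := fun e => h1 (by rw [hψ x e hd, (a 3 x hd).2 e, sub_self])
      by_cases e : ψ (single x 1) = 0
      · exact .inl ⟨h2, lc_car hA (a 3 x hd).1 fun e' => h1 (by rw [e, e', sub_self])⟩
      · exact .inr ⟨h2, hd, e⟩)
  have e : ∀ y, (H.oc y : k) * ψ (Dk M k (single y 1)) =
      (H.oc y : k) * linearCombination k ξ (Dk M k (single y 1)) +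
        (H.oc y : k) * -linearCombination k ω (Gd M k 3 (single y 1)) := fun y => by
    by_cases hd : y.dim = 4
    · have h1 := congrArg (linearCombination k ω) (b 3 y hd)
      rw [show linearCombination k ω (tb k 3 (Φ 4 (single y 1))) = 0 from
        eq_of (F := linearCombination k ω ∘ₗ tb k 3) (F' := 0)
          (fun x hx => hω x ((car_clique y).subset hx)) (a 4 y hd).1, map_add] at h1
      rw [eq_of (F := linearCombination k ξ) (F' := T) (fun x hx => by
        rw [linearCombination_single, one_smul]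
        exact if_pos (by have := hx.2; omega)) (Dk_mem y), ← mul_add]
      congr 1
      simp only [T, LinearMap.sub_apply, LinearMap.comp_apply]
      linear_combination -h1
    · rw [not_ne_iff.1 fun z => hd (H.oc_dim y z)]; simp
  simp only [e]
  rw [finsum_add_distrib, (stokes H ξ).1, zero_add, dg_eq]
  · exact (stokes H ξ).2.subset fun y hy => right_ne_zero_of_mul hy
  · refine hf.subset fun y hy => ?_
    have h1 := neg_ne_zero.1 (right_ne_zero_of_mul hy)
    refine ⟨fun z => h1 ?_, lc_car hA (Gd_car 3 y) h1⟩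
    rw [Gd_neg fun e => h.ne y z e.1, map_zero]


end Crest.Agent.N255.Dg
end
end

-- ▼ part N255/Gs/Deg
section

/-!
# Row 255 (helper89): the degree of a cochain whose coboundary has compact support on small simplices
-/

set_option autoImplicit false
open Set Filter Topology

noncomputable section

namespace Crest.Agent.N255.Gs

open Crest.Agent.N255.Tp

variable {X : Type} [TopologicalSpace X] {n d : ℕ} {K K' : Set X} {𝒰 : Set (Set X)}

section ring

variable {k : Type} [CommRing k] {A : Type} [AddCommGroup A] [Module k A]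

variable (k 𝒰) in
/-- pull back along the subdivision -/
def sr (ψ : Co A n X) : Co A n X := fun σ => ev k ψ (Sml.rho k 𝒰 n (sg k σ))

theorem ev_sr (ψ : Co A n X) (c : Ch k n X) : ev k (sr 𝒰 k ψ) c = ev k ψ (Sml.rho k 𝒰 n c) :=
  Uct.ev_lin (ev k ψ ∘ₗ Sml.rho k 𝒰 n) c

theorem cob_sr (ψ : Co A n X) : cob k (sr 𝒰 k ψ) = sr 𝒰 k (cob k ψ) := funext fun σ => by
  rw [Det.cob_ev, ev_sr, sr, ← ev_bd, Sml.bd_rho]

theorem sr_van (hU : ∀ U ∈ 𝒰, IsOpen U) (hc : univ ⊆ ⋃₀ 𝒰) {W : Set X} {ψ : Co A n X}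
    (h : ψ ∈ ((On W).inf (Sm 𝒰)).van k A n) : sr 𝒰 k ψ ∈ (On W).van k A n := fun _ hσ =>
  Sb.ev_eq_zero h (Sml.rho_inf k hU ((subset_univ _).trans hc) (Sb.sg_mem (P := On W) hσ))

variable {O : Ori k d X}


variable (O 𝒰) in
/-- the degree -/
def deg (ψ : Co A d X) (K : Set X) : A := ev k (sr 𝒰 k (cob k ψ)) (O.μ K)

theorem cob_sr_cob (ψ : Co A n X) : cob k (sr 𝒰 k (cob k ψ)) = 0 := by
  rw [← cob_sr, cob_cob]

theorem deg_eq (hU : ∀ U ∈ 𝒰, IsOpen U) (hc : univ ⊆ ⋃₀ 𝒰) (hK : IsCompact K) {ψ : Co A d X}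
    (h : cob k ψ ∈ ((On Kᶜ).inf (Sm 𝒰)).van k A (d + 1)) {z : Ch k (d + 1) X}
    (hs : z ∈ (Sm 𝒰).ch k (d + 1)) (hz : O.Fund K z) : ev k ψ (bd k z) = deg 𝒰 O ψ K := by
  rw [deg, ← hz.ev_eq (O.fund_μ hK) (sr_van hU hc h) (cob_sr_cob ψ), ev_sr, Sml.rho_of_sm k 𝒰 hs,
    ev_bd]




end ring

variable {k : Type} [Field k] [T2Space X] [ChartedSpace (EE (d + 1)) X] {O : Ori k d X}



end Crest.Agent.N255.Gs

namespace Crest.Agent.N255.Tp.Ori

variable {X : Type} [TopologicalSpace X] {d : ℕ} {k : Type} [CommRing k]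





end Crest.Agent.N255.Tp.Ori

end
namespace Crest.Agent.N255.Tp.Ori.ND
end Crest.Agent.N255.Tp.Ori.ND
end

-- ▼ part N255/Dg/Top

/-!
# Row 255 (helper10): the degree of a cocycle of the nerve pulled back to the far end of the manifold
-/

set_option autoImplicit false
set_option linter.unusedSectionVars false
open Set Finsupp

noncomputable section

namespace Crest.Agent.N255.Dg

open Nv Ra Ce Ce.Mir Ce.Mir.Cell Gs Tp Uc

variable {S K F Nd Ed : Type} [DecidableEq S] [Group F] [MulAction F Nd] [MulAction F Ed]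
  [LinearOrder K] [Finite K] {M : Mir S K F Nd Ed} {G' : Subgroup M.G} [G'.FiniteIndex]

section ring
variable {k : Type} [CommRing k]

variable (G' k) in
/-- restriction to the cells of dimension `n` -/
def πk (n : ℕ) : (M.Cell →₀ k) →ₗ[k] ((M.ug.res G').X n →₀ k) :=
  lcomapDomain (fun x => x.1) Subtype.val_injective

theorem πk_single {n : ℕ} (x : (M.ug.res G').X n) : πk G' k n (single x.1 1) = single x 1 :=
  comapDomain_single _ _ _ _

theorem πk_Dk {n : ℕ} (x : (M.ug.res G').X (n + 1)) :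
    πk G' k n (Dk M k (single x.1 1)) = bc k ((M.ug.res G').fr.d n) (single x 1) := by
  ext z
  rw [bc_apply]
  exact (Dk_apply x.1 z.1).trans (congrArg (Int.cast : ℤ → k) ((M.ug.res G').d_single n x z).symm)

/-- a vertex of a cell -/
def vx (y : M.Cell) : M.Cell := ⟨y.w, ∅, .inl (M.nd true y.c), by simp, by simp, by simp⟩

theorem vx_le (y : M.Cell) : vx y ≤ y := ⟨Finset.empty_subset _, tle_nd _ _, has_self y⟩

theorem car_vx (y : M.Cell) : car (vx y) = Init y.w := by
  rw [car, top_eq_self (by simp [vx])]; rfl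

end ring

variable {k : Type} [Field k] (H : M.Cham)

variable (G') in
/-- the fundamental class is a locally finite cycle -/
theorem lfc (k : Type) [Field k] : LFc (m := 3) (M.ug.res G').fr fun x => (H.oc x.1 : k) := fun φ =>
  eq_of (F := linearCombination k (fun x : (M.ug.res G').X 4 => (H.oc x.1 : k)) ∘ₗ bc k ((M.ug.res G').fr.de 3)) (F' := 0)
    (s := univ) (fun x _ => by
      have := congrArg (Int.cast : ℤ → k) (H.oc_de (M.ug.res G').de_apply x.1)
      rw [← (M.ug.res G').ι_single, ← (M.ug.res G').ι_de, (M.ug.res G').lc_ι] at this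
      rw [LinearMap.comp_apply, bc_single, linearCombination_apply, rd,
        mapRange.addMonoidHom_apply, sum_mapRange_index (by simp)]
      simpa [linearCombination_apply, Finsupp.sum] using this) (by simp)

variable {T : Type} [TopologicalSpace T] [MulAction G' T] [ContinuousConstSMul G' T] {K0 : Set T}
  {h : FD 4 G' K0} {L : Lab G' (M.ug.res G').X}

open Classical in
/-- the pull back of `ω` by the labels on `Far`, zero on the other simplices -/
def pb {n : ℕ} {A : Type} [Zero A] (lab : T → S) (Far : Set T) (ω : Tu S n → A) : Co A n T :=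
  fun σ => if range σ ⊆ Far then ω (vl lab σ) else 0

omit [MulAction G' T] [ContinuousConstSMul G' T] in
theorem ev_pb {n : ℕ} (lab : T → S) {Far : Set T} (ω : Tu S n → k) {c : Ch k n T}
    (hc : c ∈ (On Far).ch k n) : ev k (pb lab Far ω) c = linearCombination k ω (lb k lab n c) :=
  eq_of (F := ev k (pb lab Far ω)) (F' := linearCombination k ω ∘ₗ lb k lab n) (fun σ hσ => by
    rw [LinearMap.comp_apply, lb_sg, linearCombination_single, one_smul, ev_sg]
    exact if_pos hσ) hc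

/-- **the degree** -/
theorem deg_top (g : Mp (cell (M.ug.res G').fr k L) (h.sing k))
    (hc : LFc (m := 3) (M.ug.res G').fr fun x => (H.oc x.1 : k)) {𝒰 : Set (Set T)} (hU : ∀ V ∈ 𝒰, IsOpen V)
    (hU' : univ ⊆ ⋃₀ 𝒰) {lab : T → S} {Far : Set T} {U : M.Cell → Set T}
    (hg : ∀ n (x : (M.ug.res G').X n), g.f n (single x 1) ∈ (On (U x.1)).ch k n)
    (hl : ∀ y, ∀ p ∈ U y, p ∈ Far → lab p ∈ car y) {ω : Tu S 3 → k}
    (hω : ∀ x : Tu S 4, M.Γ.IsClique (range x) → linearCombination k ω (tb k 3 (single x 1)) = 0)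
    {A : Set S} (hA : ∀ x, ω x ≠ 0 → ∃ i, x i ∈ A)
    (hf : {y | (∃ x ≤ y, ¬U x ⊆ Far) ∧ (car y ∩ A).Nonempty}.Finite) {C : Set T} (hC : IsCompact C)
    (hv : cob k (pb lab Far ω) ∈ ((On Cᶜ).inf (Sm 𝒰)).van k k 4) :
    deg 𝒰 (ori g hc) (pb lab Far ω) C = dg H ω := by
  classical
  let r : ∀ n, (M.Cell →₀ k) →ₗ[k] Ch k n T := fun n => Sml.rho k 𝒰 n ∘ₗ g.f n ∘ₗ πk G' k n
  have r1 : ∀ n (x : (M.ug.res G').X n), r n (single x.1 1) = Sml.rho k 𝒰 n (g.f n (single x 1)) := fun n x => by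
    simp only [r, LinearMap.comp_apply, πk_single]
  have r2 : ∀ n y, y.dim = n → r n (single y 1) ∈ (On (U y)).ch k n := fun n y hy =>
    r1 n ⟨y, hy⟩ ▸ Sml.rho_mem k 𝒰 _ (hg n ⟨y, hy⟩)
  have r3 : ∀ n (x : (M.ug.res G').X (n + 1)), bd k (r (n + 1) (single x.1 1)) = r n (Dk M k (single x.1 1)) :=
    fun n x => by
      rw [r1, Sml.bd_rho, bd_g]
      simp only [r, LinearMap.comp_apply, πk_Dk]
  have r4 : ∀ y, y.dim = 0 → aug k (r 0 (single y 1)) = 1 := fun y hy => by
    rw [r1 0 ⟨y, hy⟩, Sml.rho_zero]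
    exact (g.au _).trans (au_single _ _)
  let N : Set M.Cell := {y | ∀ x ≤ y, U x ⊆ Far}
  have th : Th N fun n => lb k lab n ∘ₗ r n :=
    { cl := fun y hy x hx z hz => hy z (hz.trans hx)
      ne := fun y hy e => by
        have h1 := r2 0 (vx y) rfl
        rw [show U (vx y) = ∅ from eq_empty_of_forall_notMem fun p hp => by
          simpa [car_vx, e, Init_eq] using hl _ p hp (hy _ (vx_le y) hp)] at h1
        simpa [eq_zero_of_ch_empty h1] using r4 (vx y) rfl
      car := fun n y hy hd => mem_of (F := lb k lab n) (fun σ hσ => by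
        rw [lb_sg]
        refine single_mem_supported k 1 ?_
        rintro _ ⟨i, rfl⟩
        exact hl y _ (hσ ⟨_, rfl⟩) (hy y le_rfl (hσ ⟨_, rfl⟩))) (r2 n y hd)
      au := fun y _ hd => by rw [LinearMap.comp_apply, ta_lb, r4 y hd]
      ch := fun n y _ hd => by rw [LinearMap.comp_apply, tb_lb, r3 n ⟨y, hd⟩]; rfl }
  have nN : ∀ y, y ∉ N → ∃ x ≤ y, ¬U x ⊆ Far := fun y hy => by simpa [N] using hy
  rw [← deg_cell H th hω hA (hf.subset fun y hy => ⟨nN y hy.1, hy.2⟩) (ev k (pb lab Far ω) ∘ₗ r 3)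
    (fun y hy hd => ev_pb lab ω (ch_mono (hy y le_rfl) (r2 3 y hd)))
    (hf.subset fun y hy => ⟨nN y hy.1, ?_⟩)]
  · have e : ∀ x : (M.ug.res G').X 4, ev k (sr 𝒰 k (cob k (pb lab Far ω))) (g.f 4 (single x 1)) =
        ev k (pb lab Far ω) (r 3 (Dk M k (single x.1 1))) := fun x => by
      rw [ev_sr, ← r1, ← ev_bd, r3]
    rw [deg, ori_ev g hc hC ((ori g hc).fund_μ hC) (sr_van hU hU' hv) (cob_sr_cob _)
      (F := (mt_finite g 4 hC).toFinset) (by simp),
      finsum_eq_sum_of_support_subset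
        (s := (mt_finite g 4 hC).toFinset.image fun x : (M.ug.res G').X 4 => (x.1 : M.Cell))]
    · refine Eq.trans ?_ (Finset.sum_image fun _ _ _ _ e => Subtype.ext e).symm
      exact Finset.sum_congr rfl fun x _ => by rw [e]; rfl
    · intro y hy
      have hd : y.dim = 4 := H.oc_dim y fun z => left_ne_zero_of_mul hy (by rw [z, Int.cast_zero])
      refine Finset.mem_coe.2 (Finset.mem_image.2 ⟨⟨y, hd⟩, (Finite.mem_toFinset _).2 fun z => ?_, rfl⟩)
      exact right_ne_zero_of_mul hy ((e ⟨y, hd⟩).symm.trans (Sb.ev_eq_zero (sr_van hU hU' hv) z))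
  · by_contra e
    refine hy.2.2 (Sb.ev_eq_zero (P := On (U y)) (fun σ hσ => ?_) (r2 3 y hy.2.1))
    rw [pb]
    split_ifs with h1
    · by_contra h2
      obtain ⟨i, hi⟩ := hA _ h2
      exact e ⟨_, hl y _ (hσ ⟨_, rfl⟩) (h1 ⟨_, rfl⟩), hi⟩
    · rfl


end Crest.Agent.N255.Dg
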